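import Vale.Agent.Lib.P154.SP.Prog

/-! Generated certificates. -/

namespace Vale.Agent.Lib.P154

namespace SP

open Tr in
theorem tc0 : chk TK6c [] (s2 (s1 (s2 (s1 (s0 (s1 l l) (s0 l l)) (s0 l (s1 l l))) (s1 (s0 (s0 l l) (s0 l l)) (s0 (s2 l l) (s1 l l)))) (s0 (s0 l (s1 l l)) (s0 (s1 l l) (s1 l (s1 l l))))) (s1 (s2 (s1 (s0 (s0 l l) (s0 l (s2 l l))) (s0 (s1 l l) (s1 l l))) (s1 (s0 (s0 l l) (s0 l (s1 l l))) (s0 (s0 l l) (s0 l l)))) (s0 (s0 (s1 l l) (s1 l l)) (s1 (s0 l (s1 l l)) (s0 (s1 l l) (s1 (s2 l l) (s0 l l)))))))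
    (Bx.mk 281474993487872 16777216 281475161260032 50331648 281475029008384 52297728 281474976710656 0) = true := by
  decide +kernel

open Tr in
theorem tc1 : chk TK6c [] (s1 (s0 (s0 (s1 l l) (s1 l (s2 l l))) (s0 (s1 (s1 l l) (s0 l (s2 l l))) (s1 (s0 (s2 l l) (s2 l l)) (s0 (s2 l l) (s1 l l))))) (s2 (s0 (s0 (s1 l l) (s1 l (s1 l l))) (s0 (s1 (s1 l l) (s0 l l)) (s0 (s1 l l) (s1 l l)))) (s0 (s0 (s1 l l) (s1 (s1 l l) (s0 l l))) (s1 (s0 (s0 l l) (s0 (s2 l l) (s1 l l))) (s0 (s0 l (s2 l l)) (s0 (s1 l l) (s1 l l)))))))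
    (Bx.mk 281474993487872 16777216 281475261923328 50331648 281475002859520 26148864 281474976710656 0) = true := by
  decide +kernel

open Tr in
theorem tc2 : chk TK6c [] (s0 (s0 (s1 l (s2 l l)) (s1 (s0 l l) (s0 l (s1 l l)))) (s2 (s0 (s1 (s1 l l) (s0 l (s1 l l))) (s1 (s0 (s2 l l) (s1 l l)) (s0 (s1 l l) (s1 l l)))) (s0 (s1 (s0 l (s1 l l)) (s0 (s1 l l) (s1 l (s2 l l)))) (s1 (s0 (s1 l l) (s1 l (s2 l l))) (s0 (s1 (s2 l l) (s0 l l)) (s1 (s0 l l) (s2 l (s0 l l))))))))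
    (Bx.mk 281474993487872 16777216 281475236757504 25165824 281475055157248 26148864 281474976710656 0) = true := by
  decide +kernel

open Tr in
theorem tc3 : chk TK6c [] (s1 (s0 (s0 l (s0 l l)) (s0 (s0 (s1 l l) (s1 l l)) (s0 (s1 l (s2 l l)) (s1 (s2 l l) (s2 l l))))) (s0 (s0 (s2 l l) (s0 l (s2 l l))) (s0 (s0 (s1 l l) (s1 (s2 l l) (s2 l l))) (s0 (s1 (s2 l l) (s1 l l)) (s1 (s1 l l) (s1 l l))))))
    (Bx.mk 281474993487872 16777216 281475287089152 25165824 281475042082816 13074432 281474976710656 0) = true := by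
  decide +kernel

open Tr in
theorem tc4 : chk TK6c [] (s0 (s0 (s1 l l) (s0 l (s1 l l))) (s0 (s0 (s1 (s2 l l) (s0 l l)) (s1 (s0 l l) (s0 l (s2 l l)))) (s0 (s1 (s0 (s2 l l) (s2 l l)) (s0 (s1 l l) (s1 l l))) (s1 (s0 (s1 l l) (s1 l l)) (s0 (s1 l (s2 l l)) (s2 l (s1 l l)))))))
    (Bx.mk 281474993487872 16777216 281475274506240 12582912 281475068231680 13074432 281474976710656 0) = true := by
  decide +kernel

open Tr in
theorem tc5 : chk TK6c [] (s0 (s0 (s0 l l) (s0 (s1 l l) (s0 (s2 l l) (s1 l l)))) (s2 (s0 (s0 (s0 l (s1 l l)) (s1 (s1 l l) (s1 l l))) (s0 (s1 (s1 l l) (s0 l l)) (s1 (s0 l l) (s0 l l)))) (s1 (s0 (s0 (s0 l l) (s0 l (s2 l l))) (s0 (s0 (s1 l l) (s1 l l)) (s0 (s1 l l) (s1 l l)))) (s0 (s0 (s0 l l) (s0 (s1 l l) (s1 l l))) (s0 (s0 (s0 l (s2 l l)) (s1 l (s2 l l))) (s0 (s2 l (s1 l l)) (s2 l (s1 l l))))))))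
    (Bx.mk 281474993487872 16777216 281475299672064 12582912 281475068231680 13074432 281474976710656 0) = true := by
  decide +kernel

end SP

end Vale.Agent.Lib.P154
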