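import Vale.Agent.Lib.P154.SP.Prog

/-! Generated certificates. -/

namespace Vale.Agent.Lib.P154

namespace SP

open Tr in
theorem tc97 : chk TK6f SN.gsf (s0 (s1 (s0 (s1 (s0 l l) (s2 l (s0 l l))) (s1 (s0 l l) (s0 (s2 l l) l))) (s0 (s1 (s2 l (s0 l (s2 l l))) (s0 (s1 l (s2 l l)) (s1 l (s2 l l)))) (s1 (s0 (s1 l l) (s1 l l)) (s0 (s1 l (s2 l l)) (s1 l l))))) (s1 (s0 (s1 (s0 l l) (s0 l l)) (s1 (s0 l l) (s0 l l))) (s0 (s1 (s0 (s1 l l) (s1 l l)) (s0 (s1 l l) (s1 l l))) (s1 (s0 (s1 l l) (s1 l l)) (s0 (s1 l l) (s1 l l))))))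
    (Bx.mk 281475203203072 8388608 281475169648640 8388608 281475068231680 13074432 281474976710656 0) = true := by
  decide +kernel

open Tr in
theorem tc98 : chk TK6f SN.gsf (s0 (s1 (s1 (s0 l l) (s0 l l)) (s1 (s0 l l) (s0 (s2 l l) (s1 l l)))) (s1 (s1 (s0 l l) (s0 l (s1 l l))) (s1 (s0 (s1 l l) (s1 l l)) (s0 (s1 l l) (s1 l (s0 l l))))))
    (Bx.mk 281475219980288 8388608 281475127705600 16777216 281475042082816 13074432 281474976710656 0) = true := by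
  decide +kernel

open Tr in
theorem tc99 : chk TK6f SN.gsf (s0 (s1 (s1 (s0 l (s1 l l)) (s0 (s1 l l) (s1 l l))) (s1 (s0 (s1 l (s0 l l)) (s1 (s0 l l) (s0 l l))) (s0 (s1 (s0 l l) (s0 l l)) (s1 (s0 l l) (s0 l l))))) (s1 (s0 (s1 (s1 l l) (s1 l (s0 l l))) (s1 (s1 l l) (s1 l (s0 l l)))) (s1 (s0 (s1 (s0 l l) (s0 l l)) (s1 (s0 l l) (s0 l l))) (s0 (s1 (s0 l (s1 l l)) (s0 (s1 l l) (s1 l l))) (s1 (s0 (s1 l l) (s1 l l)) (s0 (s1 l l) (s1 l l)))))))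
    (Bx.mk 281475236757504 8388608 281475127705600 16777216 281475042082816 13074432 281474976710656 0) = true := by
  decide +kernel

open Tr in
theorem tc100 : chk TK6f SN.gsf (s0 (s1 (s1 (s0 l l) (s0 l l)) (s1 (s0 (s1 l l) (s1 l l)) (s0 (s1 l l) (s1 l l)))) (s1 (s1 (s0 l l) (s0 (s1 l l) (s1 l l))) (s1 (s0 (s1 l l) (s1 l l)) (s0 (s1 l (s2 l l)) (s1 (s0 l l) (s0 l l))))))
    (Bx.mk 281475219980288 8388608 281475127705600 16777216 281475068231680 13074432 281474976710656 0) = true := by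
  decide +kernel

open Tr in
theorem tc101 : chk TK6f SN.gsf (s0 (s1 (s1 (s0 (s1 l l) (s1 l l)) (s0 (s1 l l) (s1 l l))) (s1 (s0 (s1 l (s0 l l)) (s1 (s0 l l) (s0 l l))) (s0 (s1 (s0 l l) (s0 l l)) (s1 (s0 l l) (s0 l (s1 l l)))))) (s1 (s0 (s1 (s1 l l) (s1 l (s0 l l))) (s1 (s1 l l) (s1 (s2 l l) (s0 l l)))) (s1 (s0 (s1 (s0 l l) (s0 l l)) (s1 (s0 l l) (s0 l l))) (s0 (s1 (s0 l (s1 l l)) (s0 (s1 l l) (s1 l l))) (s1 (s0 (s1 l l) (s1 l l)) (s0 (s1 l l) (s1 l l)))))))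
    (Bx.mk 281475236757504 8388608 281475127705600 16777216 281475068231680 13074432 281474976710656 0) = true := by
  decide +kernel

open Tr in
theorem tc102 : chk TK6f SN.gsf (s0 (s1 (s1 (s0 (s1 l l) (s1 l l)) (s0 (s1 l l) (s1 l l))) (s1 (s0 (s1 l (s2 l l)) (s1 (s0 l l) (s0 l l))) (s0 (s1 (s0 l l) (s0 l l)) (s1 (s0 l l) (s0 l l))))) (s1 (s1 (s0 (s1 l l) (s1 (s0 l l) (s0 l l))) (s0 (s1 (s0 l l) (s0 l l)) (s1 (s0 l l) (s0 l l)))) (s1 (s0 (s1 (s0 l l) (s0 l l)) (s1 (s0 l l) (s0 l l))) (s0 (s1 (s0 l l) (s0 l l)) (s1 (s0 l l) (s0 (s1 l l) (s1 l l)))))))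
    (Bx.mk 281475219980288 8388608 281475161260032 16777216 281475042082816 13074432 281474976710656 0) = true := by
  decide +kernel

end SP

end Vale.Agent.Lib.P154
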