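import Vale.Agent.Lib.P154.SP.Prog

/-! Generated certificates. -/

namespace Vale.Agent.Lib.P154

namespace SP

open Tr in
theorem tc24 : chk TK6c [] (s1 (s0 (s0 (s0 (s2 l l) (s2 l l)) (s0 (s2 l l) (s2 l l))) (s0 (s0 (s2 l l) (s2 l l)) (s0 (s2 l l) l))) (s0 (s0 (s0 (s2 l l) (s2 l l)) (s0 (s1 l l) (s2 l l))) (s0 (s0 (s2 l l) (s2 l l)) (s0 (s2 l l) l))))
    (Bx.mk 281475001876480 8388608 281475400335360 12582912 281475061694464 6537216 281474976710656 0) = true := by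
  decide +kernel

open Tr in
theorem tc25 : chk TK6c [] (s0 (s0 (s0 (s0 (s2 l (s1 l (s2 l l))) (s2 l (s2 l (s1 l (s1 l l))))) (s0 (s2 l (s2 l (s1 (s1 l l) (s1 l l)))) (s2 l (s1 (s1 l l) (s0 l l))))) (s0 (s0 (s2 l (s1 (s1 l l) (s1 l l))) (s2 l (s1 (s1 l l) (s1 l l)))) (s0 (s2 l (s2 l (s1 l l))) (s2 l (s2 l (s1 l l)))))) (s0 (s0 (s0 (s2 l (s1 l l)) (s2 l (s1 l l))) (s0 (s2 l (s1 l l)) (s1 l l))) (s0 (s0 (s1 l l) (s1 l l)) (s0 (s1 l l) (s1 l l)))))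
    (Bx.mk 281475001876480 8388608 281475394043904 6291456 281475074768896 6537216 281474976710656 0) = true := by
  decide +kernel

open Tr in
theorem tc26 : chk TK6c [] (s0 (s0 (s0 (s0 (s2 l (s2 l (s1 (s1 l l) (s1 l l)))) (s2 l (s1 (s0 l l) (s0 l l)))) (s0 (s2 l (s1 (s0 l l) (s0 l l))) (s2 l (s1 (s0 l l) (s0 l l))))) (s0 (s0 (s2 l (s1 (s0 l l) (s0 l l))) (s2 l (s1 (s1 l l) (s1 l l)))) (s0 (s2 l (s1 (s2 l l) (s2 l l))) (s2 l (s2 l (s1 l l)))))) (s0 (s0 (s0 (s2 l (s1 l l)) (s2 l (s1 l l))) (s0 (s2 l (s1 l l)) (s1 l l))) (s0 (s0 (s1 l l) (s1 l l)) (s0 (s1 l l) (s2 l l)))))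
    (Bx.mk 281475001876480 8388608 281475406626816 6291456 281475074768896 6537216 281474976710656 0) = true := by
  decide +kernel

open Tr in
theorem tc27 : chk TK6c [] (s1 (s0 (s0 (s0 l l) (s0 l (s2 l l))) (s2 (s1 (s0 (s0 l l) (s0 l l)) (s0 (s0 l l) (s0 l l))) (s1 (s0 (s0 l l) (s0 l l)) (s0 (s0 l l) (s0 l l))))) (s0 (s0 (s0 l l) (s0 l (s2 l l))) (s2 (s1 (s0 (s0 l l) (s0 l l)) (s0 (s0 l l) (s0 l l))) (s1 (s0 (s0 l l) (s0 l l)) (s0 (s0 l l) (s0 l l))))))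
    (Bx.mk 281474993487872 16777216 281475438084096 25165824 281474989785088 13074432 281474976710656 0) = true := by
  decide +kernel

open Tr in
theorem tc28 : chk TK6c [] (s1 (s0 (s0 (s0 l l) (s0 (s2 l l) (s0 l l))) (s2 (s1 (s0 (s0 l l) (s0 l l)) (s0 (s0 l l) (s0 l l))) (s1 (s0 (s0 l l) (s0 l l)) (s0 (s0 l l) (s0 l l))))) (s0 (s0 (s0 l l) (s0 (s1 l l) (s0 l l))) (s2 (s1 (s0 (s0 l l) (s0 l l)) (s0 (s0 l l) (s0 l l))) (s1 (s0 (s0 l l) (s0 l l)) (s0 (s0 (s2 l l) (s2 l l)) (s0 l l))))))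
    (Bx.mk 281474993487872 16777216 281475438084096 25165824 281475015933952 13074432 281474976710656 0) = true := by
  decide +kernel

open Tr in
theorem tc29 : chk TK6c [] (s1 (s0 (s0 (s0 l l) (s0 (s2 l l) (s2 l l))) (s2 (s1 (s0 (s0 l l) (s0 l l)) (s0 (s0 l l) (s0 l l))) (s1 (s0 (s0 l l) (s0 l l)) (s0 (s0 l l) (s0 l l))))) (s0 (s0 (s0 l l) (s0 (s2 l l) (s1 l l))) (s2 (s1 (s0 (s0 l l) (s0 l l)) (s0 (s0 l l) (s0 l l))) (s1 (s0 (s0 l l) (s0 l l)) (s0 (s0 l l) (s0 l l))))))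
    (Bx.mk 281474993487872 16777216 281475488415744 25165824 281474989785088 13074432 281474976710656 0) = true := by
  decide +kernel

end SP

end Vale.Agent.Lib.P154
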